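import Mathlib

/-!
Interval integrals depending smoothly on a parameter in a closed convex set.
-/

namespace Vale.Agent.P264.Calc

open Set Metric MeasureTheory intervalIntegral
open scoped ContDiff Topology

variable {E : Type} [NormedAddCommGroup E] [NormedSpace ℝ E]

theorem hasFDerivWithinAt_param {V : Type} [NormedAddCommGroup V] [NormedSpace ℝ V]
    [CompleteSpace V] {K : Set E} (hK : Convex ℝ K) (hu : UniqueDiffOn ℝ K)
    {g : ℝ × E → V} (hg : ContDiffOn ℝ ∞ g (Icc (0:ℝ) 1 ×ˢ K)) {x : E} (hx : x ∈ K)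
    {r : ℝ} (hr : 0 < r) (hc : IsCompact (closedBall x r ∩ K)) :
    HasFDerivWithinAt (fun z => ∫ u in (0:ℝ)..1, g (u, z))
      (∫ u in (0:ℝ)..1, (fderivWithin ℝ g (Icc (0:ℝ) 1 ×ˢ K) (u, x)).comp
        (ContinuousLinearMap.inr ℝ ℝ E)) K x := by
  set S : Set (ℝ × E) := Icc (0:ℝ) 1 ×ˢ K with hS
  have huS : UniqueDiffOn ℝ S := (uniqueDiffOn_Icc zero_lt_one).prod hu
  let D : ℝ × E → E →L[ℝ] V := fun p =>
    (fderivWithin ℝ g S p).comp (ContinuousLinearMap.inr ℝ ℝ E)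
  have hD : ContinuousOn D S :=
    (hg.continuousOn_fderivWithin huS (by simp)).clm_comp continuousOn_const
  have hd : ∀ u ∈ Icc (0:ℝ) 1, ∀ z ∈ K,
      HasFDerivWithinAt (fun w => g (u, w)) (D (u, z)) K z := by
    intro u hu' z hz
    have h1 : HasFDerivWithinAt g (fderivWithin ℝ g S (u, z)) S (u, z) :=
      ((hg.differentiableOn (by simp)) (u, z) ⟨hu', hz⟩).hasFDerivWithinAt
    exact h1.comp z (hasFDerivAt_prodMk_right u z).hasFDerivWithinAt fun w hw => ⟨hu', hw⟩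
  have hint : ∀ z ∈ K, IntervalIntegrable (fun u => g (u, z)) volume 0 1 := by
    intro z hz
    apply ContinuousOn.intervalIntegrable
    rw [uIcc_of_le zero_le_one]
    exact hg.continuousOn.comp (by fun_prop) fun u hu' => ⟨hu', hz⟩
  have hDint : IntervalIntegrable (fun u => D (u, x)) volume 0 1 := by
    apply ContinuousOn.intervalIntegrable
    rw [uIcc_of_le zero_le_one]
    exact hD.comp (by fun_prop) fun u hu' => ⟨hu', hx⟩
  rw [hasFDerivWithinAt_iff_isLittleO, Asymptotics.isLittleO_iff]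
  intro ε hε
  have hcpt : IsCompact (Icc (0:ℝ) 1 ×ˢ (closedBall x r ∩ K)) := isCompact_Icc.prod hc
  have hUC := hcpt.uniformContinuousOn_of_continuous
    (hD.mono (Set.prod_mono subset_rfl inter_subset_right))
  rw [Metric.uniformContinuousOn_iff_le] at hUC
  obtain ⟨δ, hδ, hUC⟩ := hUC ε hε
  have hmem : ball x (min δ r) ∩ K ∈ 𝓝[K] x :=
    Filter.inter_mem (mem_nhdsWithin_of_mem_nhds (ball_mem_nhds x (lt_min hδ hr))) self_mem_nhdsWithin
  filter_upwards [hmem] with z hz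
  have key : ∀ u ∈ uIoc (0:ℝ) 1, ‖g (u, z) - g (u, x) - D (u, x) (z - x)‖ ≤ ε * ‖z - x‖ := by
    intro u hu'
    rw [uIoc_of_le zero_le_one] at hu'
    have hu'' : u ∈ Icc (0:ℝ) 1 := ⟨hu'.1.le, hu'.2⟩
    refine ((convex_ball x (min δ r)).inter hK).norm_image_sub_le_of_norm_hasFDerivWithin_le'
      (f := fun w => g (u, w)) (f' := fun w => D (u, w))
      (fun w hw => (hd u hu'' w hw.2).mono inter_subset_right) (fun w hw => ?_)
      ⟨mem_ball_self (lt_min hδ hr), hx⟩ hz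
    have hwd : dist w x < min δ r := mem_ball.1 hw.1
    rw [← dist_eq_norm]
    refine hUC (u, w) ⟨hu'', mem_closedBall.2 (le_of_lt (hwd.trans_le (min_le_right _ _))), hw.2⟩
      (u, x) ⟨hu'', mem_closedBall_self hr.le, hx⟩ ?_
    rw [Prod.dist_eq]
    simp only [dist_self, max_le_iff]
    exact ⟨hδ.le, (hwd.trans_le (min_le_left _ _)).le⟩
  rw [ContinuousLinearMap.intervalIntegral_apply hDint,
    ← intervalIntegral.integral_sub (hint z hz.2) (hint x hx),
    ← intervalIntegral.integral_sub ((hint z hz.2).sub (hint x hx))]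
  · calc ‖∫ u in (0:ℝ)..1, (g (u, z) - g (u, x) - D (u, x) (z - x))‖
        ≤ ε * ‖z - x‖ * |1 - (0:ℝ)| := intervalIntegral.norm_integral_le_of_norm_le_const key
      _ = ε * ‖z - x‖ := by norm_num
  · apply ContinuousOn.intervalIntegrable
    rw [uIcc_of_le zero_le_one]
    exact (hD.comp (by fun_prop) fun u hu' => ⟨hu', hx⟩).clm_apply continuousOn_const

theorem contDiffOn_param_nat (n : ℕ) :
    ∀ {V : Type} [NormedAddCommGroup V] [NormedSpace ℝ V] [CompleteSpace V] {K : Set E},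
      Convex ℝ K → UniqueDiffOn ℝ K →
      (∀ x ∈ K, ∃ r : ℝ, 0 < r ∧ IsCompact (closedBall x r ∩ K)) →
      ∀ {g : ℝ × E → V}, ContDiffOn ℝ ∞ g (Icc (0:ℝ) 1 ×ˢ K) →
        ContDiffOn ℝ n (fun z => ∫ u in (0:ℝ)..1, g (u, z)) K := by
  induction n with
  | zero =>
    intro V _ _ _ K hK hu hc g hg
    simp only [CharP.cast_eq_zero, contDiffOn_zero]
    intro x hx
    obtain ⟨r, hr, hcr⟩ := hc x hx
    exact (hasFDerivWithinAt_param hK hu hg hx hr hcr).continuousWithinAt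
  | succ n ih =>
    intro V _ _ _ K hK hu hc g hg
    have hd : ∀ x ∈ K, HasFDerivWithinAt (fun z => ∫ u in (0:ℝ)..1, g (u, z))
        (∫ u in (0:ℝ)..1, (fderivWithin ℝ g (Icc (0:ℝ) 1 ×ˢ K) (u, x)).comp
          (ContinuousLinearMap.inr ℝ ℝ E)) K x := by
      intro x hx
      obtain ⟨r, hr, hcr⟩ := hc x hx
      exact hasFDerivWithinAt_param hK hu hg hx hr hcr
    rw [Nat.cast_succ, contDiffOn_succ_iff_fderivWithin hu]
    refine ⟨fun x hx => (hd x hx).differentiableWithinAt, by simp, ?_⟩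
    have hg' : ContDiffOn ℝ ∞ (fun p => (fderivWithin ℝ g (Icc (0:ℝ) 1 ×ˢ K) p).comp
        (ContinuousLinearMap.inr ℝ ℝ E)) (Icc (0:ℝ) 1 ×ˢ K) :=
      (hg.fderivWithin ((uniqueDiffOn_Icc zero_lt_one).prod hu) (by simp)).clm_comp
        contDiffOn_const
    exact (ih hK hu hc hg').congr fun x hx => (hd x hx).fderivWithin (hu x hx)

theorem contDiffOn_param {V : Type} [NormedAddCommGroup V] [NormedSpace ℝ V] [CompleteSpace V]
    {K : Set E} (hK : Convex ℝ K) (hu : UniqueDiffOn ℝ K)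
    (hc : ∀ x ∈ K, ∃ r : ℝ, 0 < r ∧ IsCompact (closedBall x r ∩ K))
    {g : ℝ × E → V} (hg : ContDiffOn ℝ ∞ g (Icc (0:ℝ) 1 ×ˢ K)) :
    ContDiffOn ℝ ∞ (fun z => ∫ u in (0:ℝ)..1, g (u, z)) K :=
  contDiffOn_infty.2 fun n => contDiffOn_param_nat n hK hu hc hg

end Vale.Agent.P264.Calc
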