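import Mathlib

/-!
Partial derivatives of functions of time and space which are smooth on a product of intervals.
-/

namespace Vale.Agent.P264.Calc

open Set Filter
open scoped ContDiff Topology

/-- Smoothness of a function of two variables on a product set. -/
def Smooth2 (I J : Set ℝ) (f : ℝ → ℝ → ℝ) : Prop :=
  ContDiffOn ℝ ∞ (Function.uncurry f) (I ×ˢ J)

/-- Partial derivative in space, within the product set. -/
noncomputable def pdX (I J : Set ℝ) (f : ℝ → ℝ → ℝ) (t x : ℝ) : ℝ :=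
  fderivWithin ℝ (Function.uncurry f) (I ×ˢ J) (t, x) (0, 1)

/-- Partial derivative in time, within the product set. -/
noncomputable def pdT (I J : Set ℝ) (f : ℝ → ℝ → ℝ) (t x : ℝ) : ℝ :=
  fderivWithin ℝ (Function.uncurry f) (I ×ˢ J) (t, x) (1, 0)

variable {I J : Set ℝ} {f : ℝ → ℝ → ℝ} {t x : ℝ}

theorem Smooth2.pdX (hI : UniqueDiffOn ℝ I) (hJ : UniqueDiffOn ℝ J) (hf : Smooth2 I J f) :
    Smooth2 I J (Calc.pdX I J f) :=
  (hf.fderivWithin (hI.prod hJ) (by simp)).clm_apply contDiffOn_const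

theorem Smooth2.pdT (hI : UniqueDiffOn ℝ I) (hJ : UniqueDiffOn ℝ J) (hf : Smooth2 I J f) :
    Smooth2 I J (Calc.pdT I J f) :=
  (hf.fderivWithin (hI.prod hJ) (by simp)).clm_apply contDiffOn_const

theorem Smooth2.slice_x (hf : Smooth2 I J f) (ht : t ∈ I) : ContDiffOn ℝ ∞ (f t) J :=
  hf.comp (contDiff_const.prodMk contDiff_id).contDiffOn fun _ hx => ⟨ht, hx⟩

theorem Smooth2.slice_t (hf : Smooth2 I J f) (hx : x ∈ J) :
    ContDiffOn ℝ ∞ (fun r => f r x) I :=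
  hf.comp (contDiff_id.prodMk contDiff_const).contDiffOn fun _ hr => ⟨hr, hx⟩

theorem Smooth2.hasDerivWithinAt_x (hf : Smooth2 I J f) (ht : t ∈ I) (hx : x ∈ J) :
    HasDerivWithinAt (f t) (Calc.pdX I J f t x) J x := by
  have h := ((hf.differentiableOn (by simp)) (t, x) ⟨ht, hx⟩).hasFDerivWithinAt
  have h2 : HasDerivWithinAt (fun z : ℝ => (t, z)) ((0, 1) : ℝ × ℝ) J x :=
    ((hasDerivAt_const x t).prodMk (hasDerivAt_id x)).hasDerivWithinAt
  exact h.comp_hasDerivWithinAt x h2 fun z hz => ⟨ht, hz⟩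

theorem Smooth2.hasDerivWithinAt_t (hf : Smooth2 I J f) (ht : t ∈ I) (hx : x ∈ J) :
    HasDerivWithinAt (fun r => f r x) (Calc.pdT I J f t x) I t := by
  have h := ((hf.differentiableOn (by simp)) (t, x) ⟨ht, hx⟩).hasFDerivWithinAt
  have h2 : HasDerivWithinAt (fun r : ℝ => (r, x)) ((1, 0) : ℝ × ℝ) I t :=
    ((hasDerivAt_id t).prodMk (hasDerivAt_const t x)).hasDerivWithinAt
  exact h.comp_hasDerivWithinAt t h2 (fun r hr => mk_mem_prod hr hx)

theorem Smooth2.hasDerivAt_x (hf : Smooth2 I J f) (ht : t ∈ I) (hx : J ∈ 𝓝 x) :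
    HasDerivAt (f t) (Calc.pdX I J f t x) x :=
  (hf.hasDerivWithinAt_x ht (mem_of_mem_nhds hx)).hasDerivAt hx

theorem Smooth2.hasDerivAt_t (hf : Smooth2 I J f) (ht : I ∈ 𝓝 t) (hx : x ∈ J) :
    HasDerivAt (fun r => f r x) (Calc.pdT I J f t x) t :=
  (hf.hasDerivWithinAt_t (mem_of_mem_nhds ht) hx).hasDerivAt ht

theorem Smooth2.deriv_x (hf : Smooth2 I J f) (ht : t ∈ I) (hx : J ∈ 𝓝 x) :
    deriv (f t) x = Calc.pdX I J f t x :=
  (hf.hasDerivAt_x ht hx).deriv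

theorem Smooth2.derivWithin_x (hJ : UniqueDiffOn ℝ J) (hf : Smooth2 I J f) (ht : t ∈ I)
    (hx : x ∈ J) : derivWithin (f t) J x = Calc.pdX I J f t x :=
  (hf.hasDerivWithinAt_x ht hx).derivWithin (hJ x hx)

theorem Smooth2.deriv_t (hf : Smooth2 I J f) (ht : I ∈ 𝓝 t) (hx : x ∈ J) :
    deriv (fun r => f r x) t = Calc.pdT I J f t x :=
  (hf.hasDerivAt_t ht hx).deriv

theorem Smooth2.derivWithin_t (hI : UniqueDiffOn ℝ I) (hf : Smooth2 I J f) (ht : t ∈ I)
    (hx : x ∈ J) : derivWithin (fun r => f r x) I t = Calc.pdT I J f t x :=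
  (hf.hasDerivWithinAt_t ht hx).derivWithin (hI t ht)

theorem Smooth2.deriv2_x (hI : UniqueDiffOn ℝ I) (hJ : UniqueDiffOn ℝ J) (hf : Smooth2 I J f)
    (ht : t ∈ I) (hx : J ∈ 𝓝 x) :
    deriv (deriv (f t)) x = Calc.pdX I J (Calc.pdX I J f) t x := by
  have heq : deriv (f t) =ᶠ[𝓝 x] Calc.pdX I J f t := by
    filter_upwards [eventually_mem_nhds_iff.2 hx] with z hz
    exact hf.deriv_x ht hz
  rw [heq.deriv_eq]
  exact (hf.pdX hI hJ).deriv_x ht hx

/-- Mixed partial derivatives agree. -/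
theorem Smooth2.pdT_pdX (hI : UniqueDiffOn ℝ I) (hJ : UniqueDiffOn ℝ J) (hf : Smooth2 I J f)
    (ht : t ∈ I) (hx : x ∈ J) (hcl : (t, x) ∈ closure (interior (I ×ˢ J))) :
    Calc.pdT I J (Calc.pdX I J f) t x = Calc.pdX I J (Calc.pdT I J f) t x := by
  set S := I ×ˢ J with hS
  have hu : UniqueDiffOn ℝ S := hI.prod hJ
  have hd : DifferentiableWithinAt ℝ (fderivWithin ℝ (Function.uncurry f) S) S (t, x) :=
    ((hf.fderivWithin hu (m := ∞) (by simp)).differentiableOn (by simp)) _ ⟨ht, hx⟩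
  have hsymm : IsSymmSndFDerivWithinAt ℝ (Function.uncurry f) S (t, x) :=
    (hf _ ⟨ht, hx⟩).isSymmSndFDerivWithinAt
      (by simpa [minSmoothness_of_isRCLikeNormedField] using
        (WithTop.coe_le_coe.2 le_top : ((2 : ℕ∞) : WithTop ℕ∞) ≤ ∞)) hu hcl ⟨ht, hx⟩
  have happ : ∀ v w : ℝ × ℝ,
      fderivWithin ℝ (fun p => fderivWithin ℝ (Function.uncurry f) S p v) S (t, x) w
        = fderivWithin ℝ (fderivWithin ℝ (Function.uncurry f) S) S (t, x) w v := by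
    intro v w
    rw [fderivWithin_clm_apply (hu _ ⟨ht, hx⟩) hd (differentiableWithinAt_const v)]
    simp
  show fderivWithin ℝ (fun p : ℝ × ℝ => fderivWithin ℝ (Function.uncurry f) S p (0, 1)) S (t, x)
      (1, 0) = fderivWithin ℝ (fun p : ℝ × ℝ => fderivWithin ℝ (Function.uncurry f) S p (1, 0)) S
      (t, x) (0, 1)
  rw [happ, happ, hsymm.eq]

theorem mem_closure_interior_prod {a b c d : ℝ} (hab : a < b) (hcd : c < d) (ht : t ∈ Icc a b)
    (hx : x ∈ Icc c d) : (t, x) ∈ closure (interior (Icc a b ×ˢ Icc c d)) := by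
  rw [interior_prod_eq, interior_Icc, interior_Icc, closure_prod_eq, closure_Ioo hab.ne,
    closure_Ioo hcd.ne]
  exact ⟨ht, hx⟩

theorem mem_closure_interior_Ico_prod {a b c d : ℝ} (hab : a < b) (hcd : c < d) (ht : t ∈ Ico a b)
    (hx : x ∈ Icc c d) : (t, x) ∈ closure (interior (Ico a b ×ˢ Icc c d)) := by
  rw [interior_prod_eq, interior_Ico, interior_Icc, closure_prod_eq, closure_Ioo hab.ne,
    closure_Ioo hcd.ne]
  exact ⟨⟨ht.1, ht.2.le⟩, hx⟩

end Vale.Agent.P264.Calc
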